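import Vale.Agent.P225.Poly.Null

/-!
# P225: harmonic polynomials of a given bidegree in null coordinates
-/

namespace Vale.Agent.P225

open MvPolynomial

noncomputable section

variable {p : ℕ}

/-- The exponents with `a` factors `z` and `b` factors `w`. -/
def biSet (p a b : ℕ) : Set (Gen.Idx (p + 1) →₀ ℕ) :=
  {m | ∑ i, m (.inl i) = a ∧ ∑ i, m (.inr i) = b}

/-- Polynomials of bidegree `(a, b)`. -/
abbrev Bi (p a b : ℕ) : Submodule ℂ (Gen.Pol (p + 1)) := restrictSupport ℂ (biSet p a b)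

/-- Harmonic polynomials of bidegree `(a, b)`. -/
def BiHarm (p a b : ℕ) : Submodule ℂ (Gen.Pol (p + 1)) :=
  Bi p a b ⊓ LinearMap.ker (Gen.lap (p + 1))

/-- The exponents are pairs of multisets. -/
def biEquiv (p a b : ℕ) : biSet p a b ≃ Sym (Fin (p + 1)) a × Sym (Fin (p + 1)) b :=
  (((Finsupp.sumFinsuppEquivProdFinsupp (α := Fin (p + 1)) (β := Fin (p + 1))).subtypeEquiv
    (q := fun fg => fg.1.degree = a ∧ fg.2.degree = b)
    fun m => by simp [biSet, Finsupp.degree_eq_sum]).trans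
      (Equiv.subtypeProdEquivProd (p := fun f : Fin (p + 1) →₀ ℕ => f.degree = a)
        (q := fun f : Fin (p + 1) →₀ ℕ => f.degree = b))).trans
    (Equiv.prodCongr
      ((Equiv.subtypeEquivRight fun d => by simp [Finsupp.degree, Finsupp.sum]; rfl).trans
        (Sym.equivNatSum (Fin (p + 1)) a).symm)
      ((Equiv.subtypeEquivRight fun d => by simp [Finsupp.degree, Finsupp.sum]; rfl).trans
        (Sym.equivNatSum (Fin (p + 1)) b).symm))

instance finite_Bi (p a b : ℕ) : Module.Finite ℂ (Bi p a b) := by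
  have : Finite (biSet p a b) := Finite.of_equiv _ (biEquiv p a b).symm
  exact Module.Finite.of_basis (MvPolynomial.basisRestrictSupport ℂ (biSet p a b))

instance finite_BiHarm (p a b : ℕ) : Module.Finite ℂ (BiHarm p a b) :=
  Submodule.finiteDimensional_of_le (inf_le_left : BiHarm p a b ≤ Bi p a b)

theorem finrank_Bi (p a b : ℕ) :
    Module.finrank ℂ (Bi p a b) = (a + p).choose p * (b + p).choose p := by
  classical
  rw [Module.finrank_eq_card_basis
    ((MvPolynomial.basisRestrictSupport ℂ (biSet p a b)).reindex (biEquiv p a b)),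
    Fintype.card_prod, Sym.card_sym_eq_multichoose, Sym.card_sym_eq_multichoose,
    Fintype.card_fin, Nat.multichoose_eq, Nat.multichoose_eq]
  rw [show p + 1 + a - 1 = a + p by omega, show p + 1 + b - 1 = b + p by omega,
    Nat.choose_symm_add, Nat.choose_symm_add]

theorem lap_monomial (m : Gen.Idx (p + 1) →₀ ℕ) (c : ℂ) :
    Gen.lap (p + 1) (monomial m c) = ∑ i : Fin (p + 1),
      monomial (m - Finsupp.single (.inr i) 1 - Finsupp.single (.inl i) 1)
        (c * m (.inr i) * m (.inl i)) := by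
  rw [Gen.lap_apply]
  refine Finset.sum_congr rfl fun i _ => ?_
  rw [pderiv_monomial, pderiv_monomial]
  congr 1
  simp

theorem sub_mem_biSet {a b : ℕ} {m : Gen.Idx (p + 1) →₀ ℕ} (hm : m ∈ biSet p a b)
    {i : Fin (p + 1)} (hl : m (.inl i) ≠ 0) (hr : m (.inr i) ≠ 0) :
    0 < a ∧ 0 < b ∧
      m - Finsupp.single (.inr i) 1 - Finsupp.single (.inl i) 1 ∈ biSet p (a - 1) (b - 1) := by
  classical
  obtain ⟨ha, hb⟩ := hm
  have key : ∀ f : Fin (p + 1) → ℕ, f i ≠ 0 →
      0 < ∑ j, f j ∧ ∑ j, (f j - if i = j then 1 else 0) = (∑ j, f j) - 1 := by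
    intro f hf
    have hle : f i ≤ ∑ j, f j := Finset.single_le_sum (fun j _ => (f j).zero_le) (Finset.mem_univ i)
    refine ⟨by omega, ?_⟩
    rw [Finset.sum_tsub_distrib _ fun j _ => by split_ifs with h <;> [(subst h; omega); omega],
      Finset.sum_ite_eq]
    simp
  obtain ⟨k1, k2⟩ := key (fun j => m (.inl j)) hl
  obtain ⟨k3, k4⟩ := key (fun j => m (.inr j)) hr
  refine ⟨ha ▸ k1, hb ▸ k3, ?_, ?_⟩
  · rw [← ha, ← k2]
    simp [Finsupp.single_apply]
  · rw [← hb, ← k4]
    simp [Finsupp.single_apply]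

/-- The Laplacian lowers both degrees. -/
theorem lap_mem_Bi {a b : ℕ} {F : Gen.Pol (p + 1)} (hF : F ∈ Bi p (a + 1) (b + 1)) :
    Gen.lap (p + 1) F ∈ Bi p a b := by
  rw [F.as_sum, map_sum]
  refine Submodule.sum_mem _ fun m hm => ?_
  rw [lap_monomial]
  refine Submodule.sum_mem _ fun i _ => (monomial_mem_restrictSupport ℂ).2 ?_
  by_cases h : m (.inl i) = 0 ∨ m (.inr i) = 0
  · right
    rcases h with h | h <;> simp [h]
  · push Not at h
    exact Or.inl (sub_mem_biSet (hF hm) h.1 h.2).2.2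

theorem lap_eq_zero_of_mem_Bi {a b : ℕ} (hab : a = 0 ∨ b = 0) {F : Gen.Pol (p + 1)}
    (hF : F ∈ Bi p a b) : Gen.lap (p + 1) F = 0 := by
  rw [F.as_sum, map_sum]
  refine Finset.sum_eq_zero fun m hm => ?_
  rw [lap_monomial]
  refine Finset.sum_eq_zero fun i _ => ?_
  by_cases h : m (.inl i) = 0 ∨ m (.inr i) = 0
  · rcases h with h | h <;> simp [h]
  · push Not at h
    have := sub_mem_biSet (hF hm) h.1 h.2
    omega

/-- `biDim` bounds the harmonic polynomials of a bidegree from below. -/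
theorem biDim_le_finrank (hp : 1 ≤ p) (a b : ℕ) :
    biDim p a b ≤ Module.finrank ℂ (BiHarm p a b) := by
  obtain ⟨p, rfl⟩ : ∃ q, p = q + 1 := ⟨p - 1, by omega⟩
  by_cases hab : a = 0 ∨ b = 0
  · have h : BiHarm (p + 1) a b = Bi (p + 1) a b :=
      inf_eq_left.2 fun F hF => lap_eq_zero_of_mem_Bi hab hF
    rw [h, finrank_Bi, biDim]
    rcases hab with rfl | rfl
    · simp only [zero_add, Nat.choose_self, Nat.add_sub_cancel,
        show b + (p + 1) = b + p + 1 by omega,
        Nat.choose_succ_succ']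
      simp
    · simp only [zero_add, Nat.choose_self, Nat.add_sub_cancel,
        show a + (p + 1) = a + p + 1 by omega,
        Nat.choose_succ_succ']
      simp
  obtain ⟨a, rfl⟩ : ∃ q, a = q + 1 := ⟨a - 1, by omega⟩
  obtain ⟨b, rfl⟩ : ∃ q, b = q + 1 := ⟨b - 1, by omega⟩
  let f : Bi (p + 1) (a + 1) (b + 1) →ₗ[ℂ] Bi (p + 1) a b :=
    ((Gen.lap (p + 1 + 1)).domRestrict _).codRestrict _ fun F => lap_mem_Bi F.2
  let e : LinearMap.ker f ≃ₗ[ℂ] BiHarm (p + 1) (a + 1) (b + 1) :=
    { toFun := fun F => ⟨F.1.1, F.1.2, congrArg Subtype.val (LinearMap.mem_ker.1 F.2)⟩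
      invFun := fun F => ⟨⟨F.1, F.2.1⟩, Subtype.ext F.2.2⟩
      map_add' := fun _ _ => rfl
      map_smul' := fun _ _ => rfl
      left_inv := fun _ => rfl
      right_inv := fun _ => rfl }
  have h1 := LinearMap.finrank_range_add_finrank_ker f
  have h2 := Submodule.finrank_le (LinearMap.range f)
  rw [e.finrank_eq, finrank_Bi] at h1
  rw [finrank_Bi] at h2
  have h3 : biDim (p + 1) (a + 1) (b + 1) + (a + (p + 1)).choose (p + 1) * (b + (p + 1)).choose (p + 1)
      = (a + 1 + (p + 1)).choose (p + 1) * (b + 1 + (p + 1)).choose (p + 1) := by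
    simp only [biDim, Nat.add_sub_cancel, show ∀ x : ℕ, x + 1 + (p + 1) = x + (p + 1) + 1 by omega,
      Nat.choose_succ_succ']
    ring
  omega

theorem degree_eq_of_mem_biSet {a b : ℕ} {m : Gen.Idx (p + 1) →₀ ℕ} (hm : m ∈ biSet p a b) :
    m.degree = a + b := by
  rw [Finsupp.degree_eq_sum, Fintype.sum_sum_type, hm.1, hm.2]

theorem isHomogeneous_of_mem_Bi {a b : ℕ} {F : Gen.Pol (p + 1)} (hF : F ∈ Bi p a b) :
    F.IsHomogeneous (a + b) := by
  intro m hm
  rw [← degree_eq_of_mem_biSet (hF (mem_support_iff.2 hm)), Finsupp.degree_eq_weight_one]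
  rfl

/-- The bidegree is read off by the difference of the Euler fields. -/
theorem degDiff_of_mem_Bi {a b : ℕ} {F : Gen.Pol (p + 1)} (hF : F ∈ Bi p a b) :
    degDiff p F = ((a : ℂ) - (b : ℂ)) • F := by
  conv_lhs => rw [F.as_sum, map_sum]
  conv_rhs => rw [F.as_sum, Finset.smul_sum]
  refine Finset.sum_congr rfl fun m hm => ?_
  simp only [degDiff_apply, X_mul_pderiv_monomial, Finset.sum_sub_distrib, ← Finset.sum_smul,
    (hF hm).1, (hF hm).2]
  rw [sub_smul, Nat.cast_smul_eq_nsmul, Nat.cast_smul_eq_nsmul]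

/-- Polynomials of distinct bidegrees with the same total degree are independent. -/
theorem eq_zero_of_sum_Bi_eq_zero {l : ℕ} {s : Finset ℕ} {F : ℕ → Gen.Pol (p + 1)}
    (hF : ∀ a ∈ s, F a ∈ Bi p a (l - a)) (h : ∑ a ∈ s, F a = 0) : ∀ a ∈ s, F a = 0 := by
  intro a ha
  ext m
  rw [coeff_zero]
  by_contra hne
  have hm := (hF a ha (mem_support_iff.2 hne)).1
  have h0 := congrArg (coeff m) h
  rw [coeff_sum, coeff_zero, Finset.sum_eq_single_of_mem a ha fun b hb hba => by
    by_contra hb'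
    exact hba ((hF b hb (mem_support_iff.2 hb')).1.symm.trans hm)] at h0
  exact hne h0

/-- A harmonic polynomial is the sum of its bidegree components, all harmonic. -/
theorem exists_bideg_decomp {l : ℕ} {F : Gen.Pol (p + 1)} (hF : F.IsHomogeneous l)
    (hlap : Gen.lap (p + 1) F = 0) :
    ∃ G : ℕ → Gen.Pol (p + 1), (∀ a ≤ l, G a ∈ BiHarm p a (l - a)) ∧
      ∑ a ∈ Finset.range (l + 1), G a = F := by
  classical
  let G : ℕ → Gen.Pol (p + 1) := fun a =>
    ∑ m ∈ F.support.filter (fun m => ∑ i, m (.inl i) = a), monomial m (coeff m F)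
  have hdeg : ∀ m ∈ F.support, ∑ i, m (.inl i) + ∑ i, m (.inr i) = l := by
    intro m hm
    rw [← Fintype.sum_sum_type (fun i => m i), ← Finsupp.degree_eq_sum]
    by_contra hne
    exact mem_support_iff.1 hm (hF.coeff_eq_zero hne)
  have hG : ∀ a, G a ∈ Bi p a (l - a) := fun a => by
    refine Submodule.sum_mem _ fun m hm => (monomial_mem_restrictSupport ℂ).2 (Or.inl ?_)
    rw [Finset.mem_filter] at hm
    have := hdeg m hm.1
    exact ⟨hm.2, by omega⟩
  have hsum : ∑ a ∈ Finset.range (l + 1), G a = F := by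
    rw [Finset.sum_fiberwise_of_maps_to (fun m hm => Finset.mem_range.2 (by
      have := hdeg m hm; omega)) (fun m => monomial m (coeff m F))]
    exact F.as_sum.symm
  have hz : ∀ a ≤ l, Gen.lap (p + 1) (G a) = 0 := by
    have h0 : Gen.lap (p + 1) (G 0) = 0 := lap_eq_zero_of_mem_Bi (Or.inl rfl) (hG 0)
    have hl : ∀ a < l, a + 1 < l → Gen.lap (p + 1) (G (a + 1)) ∈ Bi p a (l - 2 - a) := by
      intro a _ ha
      refine lap_mem_Bi ?_
      rw [show l - 2 - a + 1 = l - (a + 1) by omega]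
      exact hG _
    have hlast : ∀ a, l ≤ a → Gen.lap (p + 1) (G a) = 0 := fun a ha =>
      lap_eq_zero_of_mem_Bi (Or.inr (Nat.sub_eq_zero_of_le ha)) (hG a)
    intro a ha
    rcases a with _ | a
    · exact h0
    rcases Nat.lt_or_ge (a + 1) l with h | h
    · refine eq_zero_of_sum_Bi_eq_zero (l := l - 2) (s := Finset.range (l - 1))
        (F := fun b => Gen.lap (p + 1) (G (b + 1))) (fun b hb => hl b ?_ ?_) ?_ a ?_
      · simp at hb; omega
      · simp at hb; omega
      · have e : Gen.lap (p + 1) (∑ a ∈ Finset.range (l + 1), G a) = 0 := by rw [hsum, hlap]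
        rw [map_sum, Finset.sum_range_succ', h0, add_zero] at e
        rw [← e]
        refine Finset.sum_subset (fun b hb => by simp at hb ⊢; omega) fun b _ hb => hlast _ ?_
        simp at hb
        omega
      · simp
        omega
    · exact hlast _ h
  exact ⟨G, fun a ha => ⟨hG a, hz a ha⟩, hsum⟩

end

end Vale.Agent.P225
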