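import Vale.Agent.P225.Interfaces
import Vale.Agent.P225.Poly.Bideg

/-!
# P225: the eigenbasis of harmonic polynomials, proof of `PolyStmt`
-/

namespace Vale.Agent.P225

open MvPolynomial
open Complex (I)

noncomputable section

variable {p l : ℕ}

/-- The eigenspace of `(xi J0)²` in the harmonic polynomials of degree `l`. -/
def Eig (p l r : ℕ) : Submodule ℝ (Poly (amb p)) :=
  Harm (amb p) l ⊓ LinearMap.ker (vf (J0 p) ∘ₗ vf (J0 p) + ((r : ℝ) ^ 2) • LinearMap.id)

theorem mem_Eig {r : ℕ} {P : Poly (amb p)} :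
    P ∈ Eig p l r ↔ IsHarm l P ∧ xi (J0 p) (xi (J0 p) P) = -((r : ℝ) ^ 2) • P := by
  simp [Eig, isHarm_iff_mem_harm, xi_eq_vf, add_eq_zero_iff_eq_neg]

instance finite_Eig (p l r : ℕ) : Module.Finite ℝ (Eig p l r) :=
  have : Module.Finite ℝ (Hom (amb p) l) :=
    Module.Finite.iff_fg.2 (MvPolynomial.homogeneousSubmodule_fg (Fin (amb p)) ℝ l)
  Submodule.finiteDimensional_of_le
    (inf_le_left.trans inf_le_left : Eig p l r ≤ Hom (amb p) l)

/-- Real and imaginary parts. -/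
theorem exists_re_im {n : ℕ} (P : CPoly n) : ∃ A B : Poly n,
    P = map (algebraMap ℝ ℂ) A + I • map (algebraMap ℝ ℂ) B := by
  refine ⟨∑ m ∈ P.support, monomial m (coeff m P).re, ∑ m ∈ P.support, monomial m (coeff m P).im,
    ?_⟩
  conv_lhs => rw [P.as_sum]
  simp only [map_sum, map_monomial, Finset.smul_sum, smul_monomial, ← Finset.sum_add_distrib,
    ← map_add]
  refine Finset.sum_congr rfl fun m _ => ?_
  congr 1
  simp [mul_comm I, Complex.re_add_im]

theorem re_im_eq_zero {n : ℕ} {A B : Poly n}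
    (h : map (algebraMap ℝ ℂ) A + I • map (algebraMap ℝ ℂ) B = 0) : A = 0 ∧ B = 0 := by
  constructor <;> ext m
  · have := congrArg (fun P : CPoly n => (coeff m P).re) h
    simpa [coeff_map] using this
  · have := congrArg (fun P : CPoly n => (coeff m P).im) h
    simpa [coeff_map] using this

theorem isHomogeneous_re_im {n k : ℕ} {A B : Poly n}
    (h : (map (algebraMap ℝ ℂ) A + I • map (algebraMap ℝ ℂ) B).IsHomogeneous k) :
    A.IsHomogeneous k ∧ B.IsHomogeneous k := by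
  constructor <;> intro m hm <;> refine h fun h0 => hm ?_
  · simpa [coeff_map] using congrArg Complex.re h0
  · simpa [coeff_map] using congrArg Complex.im h0

theorem map_real_smul {n : ℕ} (c : ℝ) (A : Poly n) :
    map (algebraMap ℝ ℂ) (c • A) = (c : ℂ) • map (algebraMap ℝ ℂ) A := by
  rw [smul_eq_C_mul, map_mul, map_C, smul_eq_C_mul]
  rfl

theorem toX_biHarm {a : ℕ} (ha : a ≤ l) {F : Gen.Pol (p + 1)} (hF : F ∈ BiHarm p a (l - a)) :
    ∃ A B, A ∈ Eig p l (Nat.dist (2 * a) l) ∧ B ∈ Eig p l (Nat.dist (2 * a) l) ∧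
      toX p F = map (algebraMap ℝ ℂ) A + I • map (algebraMap ℝ ℂ) B := by
  obtain ⟨A, B, hAB⟩ := exists_re_im (toX p F)
  have hhom : (toX p F).IsHomogeneous l := by
    have := isHomogeneous_toX (isHomogeneous_of_mem_Bi hF.1)
    rwa [Nat.add_sub_cancel' ha] at this
  rw [hAB] at hhom
  have hlap : clap (amb p) (toX p F) = 0 := by
    rw [clap_toX, LinearMap.mem_ker.1 hF.2, smul_zero, map_zero]
  rw [hAB, map_add, map_smul, clap_map, clap_map] at hlap
  set r := Nat.dist (2 * a) l with hr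
  have hq : ((a : ℂ) - ((l - a : ℕ) : ℂ)) ^ 2 = (r : ℂ) ^ 2 := by
    rw [Nat.cast_sub ha]
    rcases le_total (2 * a) l with h | h
    · rw [hr, Nat.dist_eq_sub_of_le h, Nat.cast_sub h]; push_cast; ring
    · rw [hr, Nat.dist_eq_sub_of_le_right h, Nat.cast_sub h]; push_cast; ring
  have e1 : cxi (J0 p) (toX p F) = (I * ((a : ℂ) - ((l - a : ℕ) : ℂ))) • toX p F := by
    rw [cxi_toX, degDiff_of_mem_Bi hF.1, smul_smul, map_smul]
  have hxi : cxi (J0 p) (cxi (J0 p) (toX p F)) + (((r : ℝ) ^ 2 : ℝ) : ℂ) • toX p F = 0 := by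
    rw [e1, map_smul, e1, smul_smul, ← add_smul, Complex.ofReal_pow, Complex.ofReal_natCast, ← hq]
    convert zero_smul ℂ (toX p F) using 2
    linear_combination ((a : ℂ) - ((l - a : ℕ) : ℂ)) ^ 2 * Complex.I_mul_I
  rw [hAB, map_add, map_smul, map_add, map_smul, cxi_map, cxi_map, cxi_map, cxi_map, smul_add,
    smul_comm _ I, ← map_real_smul, ← map_real_smul, add_add_add_comm, ← map_add, ← smul_add,
    ← map_add] at hxi
  obtain ⟨hA, hB⟩ := isHomogeneous_re_im hhom
  obtain ⟨hA', hB'⟩ := re_im_eq_zero hlap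
  obtain ⟨hA'', hB''⟩ := re_im_eq_zero hxi
  exact ⟨A, B, mem_Eig.2 ⟨⟨hA, hA'⟩, by rw [neg_smul]; exact eq_neg_of_add_eq_zero_left hA''⟩,
    mem_Eig.2 ⟨⟨hB, hB'⟩, by rw [neg_smul]; exact eq_neg_of_add_eq_zero_left hB''⟩, hAB⟩

theorem dist_two_mul_le {a : ℕ} (ha : a ≤ l) : Nat.dist (2 * a) l ≤ l := by
  rw [Nat.dist]
  omega

theorem eq_zero_of_sum_toX {s : Finset ℕ} (G : ∀ a : s, BiHarm p a (l - a))
    (h : ∑ a, toX p (G a) = 0) : G = 0 := by
  classical
  rw [← map_sum] at h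
  have h' := toX_injective (h.trans (map_zero (toX p)).symm)
  funext a
  refine Subtype.ext ?_
  let F : ℕ → Gen.Pol (p + 1) := fun b => if hb : b ∈ s then (G ⟨b, hb⟩ : Gen.Pol (p + 1)) else 0
  have hF : ∑ b ∈ s, F b = 0 := by
    rw [← Finset.sum_coe_sort s, ← h']
    exact Finset.sum_congr rfl fun b _ => dif_pos b.2
  have := eq_zero_of_sum_Bi_eq_zero (l := l) (fun b hb => by
    rw [show F b = G ⟨b, hb⟩ from dif_pos hb]; exact (G ⟨b, hb⟩).2.1) hF a a.2
  rw [show F a = G a from dif_pos a.2] at this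
  exact this

/-- The complex span of a real eigenspace. -/
def EigSpan (p l r : ℕ) : Submodule ℂ (CPoly (amb p)) :=
  Submodule.span ℂ (Set.range fun i =>
    map (algebraMap ℝ ℂ) (Module.finBasis ℝ (Eig p l r) i : Poly (amb p)))

theorem map_mem_EigSpan {r : ℕ} {A : Poly (amb p)} (hA : A ∈ Eig p l r) :
    map (algebraMap ℝ ℂ) A ∈ EigSpan p l r := by
  have e := congrArg (Eig p l r).subtype ((Module.finBasis ℝ (Eig p l r)).sum_repr ⟨A, hA⟩)
  simp only [map_sum, map_smul, Submodule.subtype_apply] at e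
  rw [← e, map_sum]
  refine Submodule.sum_mem _ fun i _ => ?_
  rw [map_real_smul]
  exact Submodule.smul_mem _ _ (Submodule.subset_span ⟨i, rfl⟩)

instance finite_EigSpan (p l r : ℕ) : Module.Finite ℂ (EigSpan p l r) :=
  Module.Finite.span_of_finite ℂ (Set.finite_range _)

/-- The sum of the bidegree pieces. -/
def biSum (p l : ℕ) (s : Finset ℕ) : (∀ a : s, BiHarm p a (l - a)) →ₗ[ℂ] CPoly (amb p) :=
  ∑ a : s, (toX p).toLinearMap ∘ₗ (BiHarm p a (l - a)).subtype ∘ₗ LinearMap.proj a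

theorem biSum_apply {s : Finset ℕ} (G : ∀ a : s, BiHarm p a (l - a)) :
    biSum p l s G = ∑ a, toX p (G a) := by
  simp [biSum, LinearMap.sum_apply]

theorem finrank_bideg_le {r : ℕ} (s : Finset ℕ) (hs : ∀ a ∈ s, a ≤ l ∧ Nat.dist (2 * a) l = r) :
    Module.finrank ℂ (∀ a : s, BiHarm p a (l - a)) ≤ Module.finrank ℝ (Eig p l r) := by
  have hmem : ∀ G, biSum p l s G ∈ EigSpan p l r := by
    intro G
    rw [biSum_apply]
    refine Submodule.sum_mem _ fun a _ => ?_
    obtain ⟨A, B, hA, hB, e⟩ := toX_biHarm (hs a a.2).1 (G a).2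
    rw [(hs a a.2).2] at hA hB
    rw [e]
    exact add_mem (map_mem_EigSpan hA) (Submodule.smul_mem _ _ (map_mem_EigSpan hB))
  have hinj : Function.Injective ((biSum p l s).codRestrict (EigSpan p l r) hmem) := by
    rw [← LinearMap.ker_eq_bot, LinearMap.ker_eq_bot']
    intro G hG
    exact eq_zero_of_sum_toX G ((biSum_apply G).symm.trans (congrArg Subtype.val hG))
  exact (LinearMap.finrank_le_finrank_of_injective hinj).trans
    ((finrank_range_le_card _).trans (Fintype.card_fin _).le)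

theorem sum_biDim_le_finrank (hp : 1 ≤ p) (l r : ℕ) :
    ∑ a ∈ (Finset.range (l + 1)).filter (fun a => Nat.dist (2 * a) l = r), biDim p a (l - a) ≤
      Module.finrank ℝ (Eig p l r) := by
  refine le_trans ?_ (finrank_bideg_le
    ((Finset.range (l + 1)).filter fun a => Nat.dist (2 * a) l = r) fun a ha => ?_)
  · rw [Module.finrank_pi_fintype, Finset.sum_coe_sort _ fun a => Module.finrank ℂ (BiHarm p a (l - a))]
    exact Finset.sum_le_sum fun a _ => biDim_le_finrank hp a _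
  · rw [Finset.mem_filter, Finset.mem_range] at ha
    exact ⟨Nat.lt_succ_iff.1 ha.1, ha.2⟩

theorem harm_mem_iSup_Eig {P : Poly (amb p)} (hP : IsHarm l P) :
    P ∈ ⨆ r : Fin (l + 1), Eig p l r := by
  have hF : (ofX p (map (algebraMap ℝ ℂ) P)).IsHomogeneous l :=
    isHomogeneous_ofX (hP.1.map _)
  have hlap : Gen.lap (p + 1) (ofX p (map (algebraMap ℝ ℂ) P)) = 0 := by
    have := clap_toX (ofX p (map (algebraMap ℝ ℂ) P))
    rw [toX_ofX, clap_map, hP.2, map_zero] at this
    have h4 := toX_injective (this.symm.trans (map_zero (toX p)).symm)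
    exact (smul_eq_zero.1 h4).resolve_left (by norm_num)
  obtain ⟨G, hG, hsum⟩ := exists_bideg_decomp hF hlap
  choose A B hA hB hAB using fun a : Fin (l + 1) =>
    toX_biHarm (Nat.lt_succ_iff.1 a.2) (hG a (Nat.lt_succ_iff.1 a.2))
  have h1 : map (algebraMap ℝ ℂ) P = ∑ a : Fin (l + 1), toX p (G a) := by
    rw [← map_sum, ← Finset.sum_range, hsum, toX_ofX]
  have h2 : map (algebraMap ℝ ℂ) (∑ a, A a - P) + I • map (algebraMap ℝ ℂ) (∑ a, B a) = 0 := by
    rw [map_sub, map_sum, map_sum, Finset.smul_sum, h1, sub_add_eq_add_sub,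
      ← Finset.sum_add_distrib, sub_eq_zero]
    exact Finset.sum_congr rfl fun a _ => (hAB a).symm
  rw [← sub_eq_zero.1 (re_im_eq_zero h2).1]
  refine Submodule.sum_mem _ fun a _ => ?_
  exact Submodule.mem_iSup_of_mem
    (⟨_, Nat.lt_succ_iff.2 (dist_two_mul_le (Nat.lt_succ_iff.1 a.2))⟩ : Fin (l + 1)) (hA a)

theorem iSupIndep_Eig (p l : ℕ) : iSupIndep fun r : Fin (l + 1) => Eig p l r := by
  have hi : Function.Injective fun r : Fin (l + 1) => -((r : ℕ) : ℝ) ^ 2 := fun r r' h => by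
    simp only [neg_inj] at h
    exact Fin.ext (by exact_mod_cast (pow_left_inj₀ (by positivity) (by positivity) two_ne_zero).1 h)
  refine ((Module.End.eigenspaces_iSupIndep
    (vf (J0 p) ∘ₗ vf (J0 p) : Module.End ℝ (Poly (amb p)))).comp hi).mono fun r P hP => ?_
  rw [mem_Eig, xi_eq_vf, xi_eq_vf] at hP
  exact Module.End.mem_eigenspace_iff.2 hP.2

/-- The vectors of the eigenbasis. -/
def eigVec (p l : ℕ) (r : Fin (l + 1)) (i : Fin (Module.finrank ℝ (Eig p l r))) : Poly (amb p) :=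
  (Module.finBasis ℝ (Eig p l r) i : Poly (amb p))

theorem span_eigVec (p l : ℕ) (r : Fin (l + 1)) :
    Submodule.span ℝ (Set.range (eigVec p l r)) = Eig p l r := by
  have : Set.range (eigVec p l r) =
      (Eig p l r).subtype '' Set.range (Module.finBasis ℝ (Eig p l r)) :=
    Set.range_comp _ _
  rw [this, Submodule.span_image, Module.Basis.span_eq, Submodule.map_subtype_top]

theorem linearIndependent_eigVec (p l : ℕ) :
    LinearIndependent ℝ fun x : Σ r : Fin (l + 1), Fin (Module.finrank ℝ (Eig p l r)) =>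
      eigVec p l x.1 x.2 := by
  refine linearIndependent_iUnion_finite (f := eigVec p l)
    (fun r => (Module.finBasis ℝ (Eig p l r)).linearIndependent.map'
      (Eig p l r).subtype (Submodule.ker_subtype _)) fun r t _ hr => ?_
  simp only [span_eigVec]
  exact (iSupIndep_Eig p l r).mono_right (iSup₂_le fun r' hr' =>
    le_iSup₂ (f := fun j (_ : j ≠ r) => Eig p l j) r' (fun h => hr (h ▸ hr')))

theorem exists_eigBasis (hp : 1 ≤ p) (l : ℕ) :
    ∃ (d : ℕ) (b : Fin d → Poly (amb p)) (q : Fin d → ℕ), IsEigBasis p l b q ∧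
      ∀ r : ℕ,
        ∑ a ∈ (Finset.range (l + 1)).filter (fun a => Nat.dist (2 * a) l = r), biDim p a (l - a) ≤
          (Finset.univ.filter fun i => q i = r).card := by
  classical
  obtain ⟨d, ⟨e⟩⟩ : ∃ d, Nonempty
      (Fin d ≃ Σ r : Fin (l + 1), Fin (Module.finrank ℝ (Eig p l r))) :=
    ⟨_, ⟨(Fintype.equivFin _).symm⟩⟩
  have hmem : ∀ i, eigVec p l (e i).1 (e i).2 ∈ Eig p l (e i).1 := fun i => Subtype.prop _
  refine ⟨_, fun i => eigVec p l (e i).1 (e i).2, fun i => ((e i).1 : ℕ),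
    ⟨(linearIndependent_eigVec p l).comp e e.injective, fun i => (mem_Eig.1 (hmem i)).1, ?_,
      fun i => Nat.lt_succ_iff.1 (e i).1.2, fun i => (mem_Eig.1 (hmem i)).2⟩, ?_⟩
  · intro P hP
    refine (iSup_le fun r => ?_ : ⨆ r : Fin (l + 1), Eig p l r ≤ _) (harm_mem_iSup_Eig hP)
    rw [← span_eigVec, Set.range_comp' (g := fun x :
      Σ r : Fin (l + 1), Fin (Module.finrank ℝ (Eig p l r)) => eigVec p l x.1 x.2),
      e.surjective.range_eq, Set.image_univ]
    exact Submodule.span_mono fun _ ⟨i, hi⟩ => ⟨⟨r, i⟩, hi⟩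
  · intro r
    by_cases hr : r ≤ l
    · refine (sum_biDim_le_finrank hp l r).trans (le_of_eq_of_le (Finset.card_fin _).symm
        (Finset.card_le_card_of_injOn (fun i => e.symm ⟨⟨r, Nat.lt_succ_iff.2 hr⟩, i⟩)
          (fun i _ => by simp) ?_))
      intro i _ j _ h
      simpa using h
    · rw [Finset.filter_false_of_mem fun a ha (h : Nat.dist (2 * a) l = r) =>
        hr (h ▸ dist_two_mul_le (Nat.lt_succ_iff.1 (Finset.mem_range.1 ha)))]
      simp

theorem poly_ok : PolyStmt := fun _ hp =>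
  ⟨exists_eigBasis hp, fun _ hU => ⟨isCx_Jof hU, xi_Jof_rot hU⟩,
    fun _ _ _ _ hb _ hU => hb.exists_rotMatrix hU⟩

end

end Vale.Agent.P225
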