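import Vale.Agent.P225.Defs
import Vale.Agent.P225.Harm

/-!
# P225: rotations and vector fields on harmonic polynomials
-/

namespace Vale.Agent.P225

open MvPolynomial
open scoped Matrix

noncomputable section

variable {n : ℕ}

/-- The chain rule for a substitution of polynomials. -/
theorem pderiv_aeval {R σ τ : Type*} [CommSemiring R] [Fintype σ]
    (f : σ → MvPolynomial τ R) (i : τ) (P : MvPolynomial σ R) :
    pderiv i (aeval f P) = ∑ k, aeval f (pderiv k P) * pderiv i (f k) := by
  classical
  induction P using MvPolynomial.induction_on with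
  | C a => simp
  | add P Q hP hQ => simp only [map_add, hP, hQ, Finset.sum_add_distrib, add_mul]
  | mul_X P a h =>
    simp only [map_mul, map_add, aeval_X, pderiv_mul, h, pderiv_X, Finset.sum_mul, add_mul,
      Finset.sum_add_distrib]
    congr 1
    · exact Finset.sum_congr rfl fun k _ => by ring
    · rw [Finset.sum_eq_single_of_mem a (Finset.mem_univ a) fun k _ hk => by
        simp [Pi.single_eq_of_ne hk.symm]]
      simp

theorem polyLap_eq_lap (P : Poly n) : polyLap P = lap P := (lap_apply P).symm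

theorem xi_eq_vf (J : Matrix (Fin n) (Fin n) ℝ) (P : Poly n) : xi J P = vf J P :=
  (vf_apply J P).symm

theorem isHarm_iff_mem_harm {l : ℕ} {P : Poly n} : IsHarm l P ↔ P ∈ Harm n l := by
  rw [mem_harm, IsHarm, polyLap_eq_lap]

theorem IsHarm.sum_smul {l : ℕ} {ι : Type*} {s : Finset ι} {P : ι → Poly n} (c : ι → ℝ)
    (h : ∀ a ∈ s, IsHarm l (P a)) : IsHarm l (∑ a ∈ s, c a • P a) :=
  isHarm_iff_mem_harm.2 <| Submodule.sum_mem _ fun a ha =>
    Submodule.smul_mem _ _ (isHarm_iff_mem_harm.1 (h a ha))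

/-- The vector field of a skew matrix preserves the harmonic polynomials. -/
theorem isHarm_xi {J : Matrix (Fin n) (Fin n) ℝ} (hJ : J.transpose = -J) {l : ℕ} {P : Poly n}
    (h : IsHarm l P) : IsHarm l (xi J P) := by
  rw [isHarm_iff_mem_harm] at h ⊢
  rw [xi_eq_vf]
  exact vf_mem_harm (fun i j => by simpa using congrFun (congrFun hJ j) i) h

/-- The linear substitution of `rot`. -/
abbrev rotVar (U : Matrix (Fin n) (Fin n) ℝ) (i : Fin n) : Poly n := ∑ j, C (U j i) * X j

theorem rot_def (U : Matrix (Fin n) (Fin n) ℝ) (P : Poly n) : rot U P = aeval (rotVar U) P := rfl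

theorem rot_add (U : Matrix (Fin n) (Fin n) ℝ) (P Q : Poly n) :
    rot U (P + Q) = rot U P + rot U Q := map_add _ P Q

theorem rot_smul (U : Matrix (Fin n) (Fin n) ℝ) (c : ℝ) (P : Poly n) :
    rot U (c • P) = c • rot U P := map_smul (aeval (rotVar U)) c P

theorem rot_mul (U : Matrix (Fin n) (Fin n) ℝ) (P Q : Poly n) :
    rot U (P * Q) = rot U P * rot U Q := map_mul (aeval (rotVar U)) P Q

theorem rot_C (U : Matrix (Fin n) (Fin n) ℝ) (c : ℝ) : rot U (C c) = C c := aeval_C _ c

theorem rot_X (U : Matrix (Fin n) (Fin n) ℝ) (i : Fin n) : rot U (X i) = rotVar U i := aeval_X _ i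

theorem rot_sum (U : Matrix (Fin n) (Fin n) ℝ) {ι : Type*} (s : Finset ι) (P : ι → Poly n) :
    rot U (∑ a ∈ s, P a) = ∑ a ∈ s, rot U (P a) := map_sum (aeval (rotVar U)) P s

theorem eval_rot (U : Matrix (Fin n) (Fin n) ℝ) (P : Poly n) (x : Fin n → ℝ) :
    eval x (rot U P) = eval (fun i => ∑ j, U j i * x j) P := by
  induction P using MvPolynomial.induction_on with
  | C a => simp [rot_C]
  | add P Q hP hQ => simp [rot_add, hP, hQ]
  | mul_X P a h => simp [rot_mul, rot_X, h]

theorem rot_rot (U V : Matrix (Fin n) (Fin n) ℝ) (P : Poly n) :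
    rot U (rot V P) = rot (U * V) P := by
  induction P using MvPolynomial.induction_on with
  | C a => simp [rot_C]
  | add P Q hP hQ => simp [rot_add, hP, hQ]
  | mul_X P a h =>
    simp only [rot_mul, h, rot_X, rot_sum, rot_C]
    congr 1
    simp only [Finset.mul_sum]
    rw [Finset.sum_comm]
    refine Finset.sum_congr rfl fun j _ => ?_
    rw [Matrix.mul_apply, map_sum, Finset.sum_mul]
    refine Finset.sum_congr rfl fun k _ => ?_
    rw [C_mul]
    ring

theorem rot_one (P : Poly n) : rot 1 P = P := by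
  induction P using MvPolynomial.induction_on with
  | C a => simp [rot_C]
  | add P Q hP hQ => simp [rot_add, hP, hQ]
  | mul_X P a h =>
    rw [rot_mul, h, rot_X, rotVar,
      Finset.sum_eq_single_of_mem a (Finset.mem_univ a) fun j _ hj => by simp [hj]]
    simp

theorem isHomogeneous_rot (U : Matrix (Fin n) (Fin n) ℝ) {l : ℕ} {P : Poly n}
    (h : P.IsHomogeneous l) : (rot U P).IsHomogeneous l := by
  have h1 : ∀ i, (rotVar U i).IsHomogeneous 1 := fun i =>
    IsHomogeneous.sum _ _ _ fun j _ => (isHomogeneous_X ℝ j).C_mul _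
  simpa [rot_def] using h.aeval (rotVar U) h1

theorem pderiv_rot (U : Matrix (Fin n) (Fin n) ℝ) (k : Fin n) (P : Poly n) :
    pderiv k (rot U P) = ∑ i, C (U k i) * rot U (pderiv i P) := by
  rw [rot_def, pderiv_aeval]
  refine Finset.sum_congr rfl fun i _ => ?_
  rw [mul_comm, rot_def]
  congr 1
  exact pderiv_lin (fun i j => U j i) i k

/-- An orthogonal substitution commutes with the Laplacian. -/
theorem polyLap_rot {U : Matrix (Fin n) (Fin n) ℝ} (hU : U.transpose * U = 1) (P : Poly n) :
    polyLap (rot U P) = rot U (polyLap P) := by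
  have h : ∀ i j, ∑ k, (C (U k i) * C (U k j) : Poly n) = if i = j then 1 else 0 := by
    intro i j
    have := congrFun (congrFun hU i) j
    simp only [Matrix.mul_apply, Matrix.transpose_apply, Matrix.one_apply] at this
    simp only [← C_mul, ← map_sum, this]
    split_ifs <;> simp
  simp only [polyLap, pderiv_rot, map_sum, pderiv_mul, pderiv_C, zero_mul, zero_add, rot_sum,
    Finset.mul_sum, ← mul_assoc]
  rw [Finset.sum_comm]
  refine Finset.sum_congr rfl fun i _ => ?_
  rw [Finset.sum_comm]
  simp_rw [← Finset.sum_mul, h]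
  simp

theorem isHarm_rot {U : Matrix (Fin n) (Fin n) ℝ} (hU : IsOrth U) {l : ℕ} {P : Poly n}
    (h : IsHarm l P) : IsHarm l (rot U P) :=
  ⟨isHomogeneous_rot U h.1, by rw [polyLap_rot hU.2, h.2]; exact map_zero (aeval (rotVar U))⟩

/-- Substitution intertwines the vector fields of related matrices. -/
theorem xi_rot {U J J' : Matrix (Fin n) (Fin n) ℝ} (h : U.transpose * J' = J * U.transpose)
    (P : Poly n) : xi J' (rot U P) = rot U (xi J P) := by
  have e : ∀ i, ∑ k, (∑ j, C (J' k j) * X j : Poly n) * C (U k i) =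
      rot U (∑ j, C (J i j) * X j) := by
    intro i
    simp only [rot_sum, rot_mul, rot_C, rot_X, Finset.mul_sum, Finset.sum_mul]
    rw [Finset.sum_comm]
    conv_rhs => rw [Finset.sum_comm]
    refine Finset.sum_congr rfl fun j _ => ?_
    have := congrFun (congrFun h i) j
    simp only [Matrix.mul_apply, Matrix.transpose_apply] at this
    calc ∑ k, (C (J' k j) * X j : Poly n) * C (U k i) = C (∑ k, U k i * J' k j) * X j := by
          simp only [map_sum, C_mul, Finset.sum_mul]
          exact Finset.sum_congr rfl fun k _ => by ring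
      _ = _ := by
          rw [this]
          simp only [map_sum, C_mul, Finset.sum_mul, mul_assoc]
  simp only [xi, pderiv_rot, rot_sum, rot_mul, Finset.mul_sum, ← mul_assoc]
  rw [Finset.sum_comm]
  refine Finset.sum_congr rfl fun i _ => ?_
  rw [← Finset.sum_mul, e]
  simp only [rot_sum, rot_mul, rot_C]

theorem J0_transpose (p : ℕ) : (J0 p).transpose = -J0 p := by
  ext i j
  simp only [Matrix.transpose_apply, Matrix.neg_apply, J0]
  split_ifs <;> first | omega | norm_num

theorem J0_mul_J0 (p : ℕ) : J0 p * J0 p = -1 := by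
  ext i k
  rw [Matrix.mul_apply]
  rcases Nat.mod_two_eq_zero_or_one i.val with hi | hi
  · rw [Finset.sum_eq_single_of_mem (⟨i.val + 1, by grind⟩ : Fin (amb p)) (Finset.mem_univ _)
      fun j _ hj => by
        rw [Ne, Fin.ext_iff] at hj
        simp only at hj
        simp only [J0]
        split_ifs <;> first | omega | simp]
    simp only [J0, Matrix.neg_apply, Matrix.one_apply, Fin.ext_iff]
    split_ifs <;> first | omega | tauto | norm_num
  · rw [Finset.sum_eq_single_of_mem (⟨i.val - 1, by omega⟩ : Fin (amb p)) (Finset.mem_univ _)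
      fun j _ hj => by
        rw [Ne, Fin.ext_iff] at hj
        simp only at hj
        simp only [J0]
        split_ifs <;> first | omega | simp]
    simp only [J0, Matrix.neg_apply, Matrix.one_apply, Fin.ext_iff]
    split_ifs <;> first | omega | tauto | norm_num

theorem isCx_Jof {p : ℕ} {U : Matrix (Fin (amb p)) (Fin (amb p)) ℝ} (hU : IsOrth U) :
    IsCx (Jof U) := by
  constructor
  · simp [Jof, Matrix.transpose_mul, J0_transpose, Matrix.mul_assoc]
  · simp only [Jof, Matrix.mul_assoc]
    rw [← Matrix.mul_assoc U.transpose, hU.2, Matrix.one_mul, ← Matrix.mul_assoc (J0 p),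
      J0_mul_J0]
    simp [hU.1]

theorem xi_Jof_rot {p : ℕ} {U : Matrix (Fin (amb p)) (Fin (amb p)) ℝ} (hU : IsOrth U)
    (P : Poly (amb p)) : xi (Jof U) (rot U P) = rot U (xi (J0 p) P) :=
  xi_rot (by rw [Jof, ← Matrix.mul_assoc, ← Matrix.mul_assoc, hU.2, Matrix.one_mul]) P

theorem IsOrth.transpose {U : Matrix (Fin n) (Fin n) ℝ} (hU : IsOrth U) : IsOrth U.transpose :=
  ⟨by simpa using hU.2, by simpa using hU.1⟩

/-- In a basis of the harmonic polynomials a rotation has an invertible matrix. -/
theorem exists_rotMatrix {l d : ℕ} {b : Fin d → Poly n} (hli : LinearIndependent ℝ b)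
    (hb : ∀ a, IsHarm l (b a)) (hsp : ∀ P, IsHarm l P → P ∈ Submodule.span ℝ (Set.range b))
    {U : Matrix (Fin n) (Fin n) ℝ} (hU : IsOrth U) :
    ∃ R Ri : Matrix (Fin d) (Fin d) ℝ,
      IsRotMatrix b U R ∧ IsRotMatrix b U.transpose Ri ∧ R * Ri = 1 ∧ Ri * R = 1 := by
  have key : ∀ V, IsOrth V → ∃ R : Matrix (Fin d) (Fin d) ℝ, IsRotMatrix b V R := by
    intro V hV
    choose c hc using fun a =>
      (Submodule.mem_span_range_iff_exists_fun ℝ).1 (hsp _ (isHarm_rot hV (hb a)))
    exact ⟨fun i j => c j i, fun a => (hc a).symm⟩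
  obtain ⟨R, hR⟩ := key U hU
  obtain ⟨Ri, hRi⟩ := key U.transpose hU.transpose
  have inv : ∀ (V : Matrix (Fin n) (Fin n) ℝ) (A B : Matrix (Fin d) (Fin d) ℝ),
      V * V.transpose = 1 → IsRotMatrix b V A → IsRotMatrix b V.transpose B → A * B = 1 := by
    intro V A B hV hA hB
    ext i a
    have h : ∑ i, ((A * B) i a - (1 : Matrix (Fin d) (Fin d) ℝ) i a) • b i = 0 := by
      simp only [sub_smul, Finset.sum_sub_distrib, Matrix.one_apply, ite_smul, one_smul,
        zero_smul, Finset.sum_ite_eq', Finset.mem_univ, if_true, Matrix.mul_apply, Finset.sum_smul]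
      rw [Finset.sum_comm, sub_eq_zero]
      calc ∑ a', ∑ i, (A i a' * B a' a) • b i = ∑ a', B a' a • rot V (b a') := by
            refine Finset.sum_congr rfl fun a' _ => ?_
            rw [hA a', Finset.smul_sum]
            simp [smul_smul, mul_comm]
        _ = rot V (rot V.transpose (b a)) := by simp [hB a, rot_sum, rot_smul]
        _ = b a := by rw [rot_rot, hV, rot_one]
    exact sub_eq_zero.1 (Fintype.linearIndependent_iff.1 hli _ h i)
  exact ⟨R, Ri, hR, hRi, inv U R Ri hU.1 hR hRi,
    inv U.transpose Ri R (by simpa using hU.2) hRi (by simpa using hR)⟩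

theorem IsEigBasis.exists_rotMatrix {p l d : ℕ} {b : Fin d → Poly (amb p)} {q : Fin d → ℕ}
    (h : IsEigBasis p l b q) {U : Matrix (Fin (amb p)) (Fin (amb p)) ℝ} (hU : IsOrth U) :
    ∃ R Ri : Matrix (Fin d) (Fin d) ℝ,
      IsRotMatrix b U R ∧ IsRotMatrix b U.transpose Ri ∧ R * Ri = 1 ∧ Ri * R = 1 :=
  P225.exists_rotMatrix h.1 h.2.1 h.2.2.1 hU

end

end Vale.Agent.P225
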