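import Vale.Agent.P225.Poly.Rot
import Vale.Agent.P225.Gen.Poly

/-!
# P225: complex polynomials and null coordinates

`toX` substitutes `z_a = x_{2a} + i x_{2a+1}`, `w_a = x_{2a} - i x_{2a+1}`.
-/

namespace Vale.Agent.P225

open MvPolynomial
open Complex (I)

noncomputable section

variable {p : ℕ}

theorem reIdx_ne_imIdx (a b : Fin (p + 1)) : reIdx a ≠ imIdx b := by
  simp only [reIdx, imIdx, ne_eq, Fin.ext_iff]
  omega

theorem eq_reIdx_or_imIdx (i : Fin (amb p)) : ∃ a : Fin (p + 1), i = reIdx a ∨ i = imIdx a :=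
  ⟨⟨i.val / 2, by grind⟩, by simp only [reIdx, imIdx, Fin.ext_iff]; omega⟩

/-- The two halves of the coordinates. -/
def halves (p : ℕ) : Gen.Idx (p + 1) ≃ Fin (amb p) :=
  Equiv.ofBijective (Sum.elim reIdx imIdx) ⟨fun u v => by
    rcases u with a | a <;> rcases v with b | b <;>
      simp [reIdx, imIdx, Fin.ext_iff] <;> omega, fun i => by
    obtain ⟨a, rfl | rfl⟩ := eq_reIdx_or_imIdx i
    exacts [⟨.inl a, rfl⟩, ⟨.inr a, rfl⟩]⟩

theorem sum_halves {β : Type*} [AddCommMonoid β] (f : Fin (amb p) → β) :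
    ∑ i, f i = ∑ a, (f (reIdx a) + f (imIdx a)) := by
  rw [← (halves p).sum_comp, Fintype.sum_sum_type, Finset.sum_add_distrib]
  rfl

theorem pderiv_swap' {R σ : Type*} [CommSemiring R] (i j : σ) (P : MvPolynomial σ R) :
    pderiv i (pderiv j P) = pderiv j (pderiv i P) := by
  classical
  ext m
  simp only [coeff_pderiv]
  rcases eq_or_ne i j with rfl | h
  · rfl
  rw [add_right_comm m]
  simp [Finsupp.add_apply, Finsupp.single_eq_of_ne h, Finsupp.single_eq_of_ne h.symm]
  ring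

/-- Complex polynomials in real coordinates. -/
abbrev CPoly (n : ℕ) := MvPolynomial (Fin n) ℂ

/-- The Laplacian on complex polynomials. -/
def clap (n : ℕ) : CPoly n →ₗ[ℂ] CPoly n :=
  ∑ i, (pderiv i).toLinearMap ∘ₗ (pderiv i).toLinearMap

theorem clap_apply {n : ℕ} (P : CPoly n) : clap n P = ∑ i, pderiv i (pderiv i P) := by
  simp [clap, LinearMap.sum_apply]

/-- The vector field of a real matrix on complex polynomials. -/
def cxi {n : ℕ} (J : Matrix (Fin n) (Fin n) ℝ) : CPoly n →ₗ[ℂ] CPoly n :=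
  ∑ i, (LinearMap.mulLeft ℂ (∑ j, C ((J i j : ℂ)) * X j)) ∘ₗ (pderiv i).toLinearMap

theorem cxi_apply {n : ℕ} (J : Matrix (Fin n) (Fin n) ℝ) (P : CPoly n) :
    cxi J P = ∑ i, (∑ j, C ((J i j : ℂ)) * X j) * pderiv i P := by
  simp [cxi, LinearMap.sum_apply]

theorem clap_map {n : ℕ} (P : Poly n) :
    clap n (map (algebraMap ℝ ℂ) P) = map (algebraMap ℝ ℂ) (polyLap P) := by
  simp [clap_apply, polyLap, map_sum, pderiv_map]

theorem cxi_map {n : ℕ} (J : Matrix (Fin n) (Fin n) ℝ) (P : Poly n) :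
    cxi J (map (algebraMap ℝ ℂ) P) = map (algebraMap ℝ ℂ) (xi J P) := by
  simp [cxi_apply, xi, map_sum, pderiv_map, Finset.sum_mul]

/-- The substituted variables. -/
def zVar : Gen.Idx (p + 1) → CPoly (amb p) :=
  Sum.elim (fun a => X (reIdx a) + C I * X (imIdx a)) (fun a => X (reIdx a) - C I * X (imIdx a))

/-- From null to real coordinates. -/
def toX (p : ℕ) : Gen.Pol (p + 1) →ₐ[ℂ] CPoly (amb p) := aeval zVar

/-- From real to null coordinates. -/
def xVar (i : Fin (amb p)) : Gen.Pol (p + 1) :=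
  Sum.elim (fun a => C (1 / 2) * (X (.inl a) + X (.inr a)))
    (fun a => C (-I / 2) * (X (.inl a) - X (.inr a))) ((halves p).symm i)

/-- The inverse substitution. -/
def ofX (p : ℕ) : CPoly (amb p) →ₐ[ℂ] Gen.Pol (p + 1) := aeval xVar

theorem xVar_reIdx (a : Fin (p + 1)) :
    xVar (reIdx a) = C (1 / 2) * (X (.inl a) + X (.inr a)) := by
  rw [xVar, show reIdx a = halves p (.inl a) from rfl, Equiv.symm_apply_apply]
  rfl

theorem xVar_imIdx (a : Fin (p + 1)) :
    xVar (imIdx a) = C (-I / 2) * (X (.inl a) - X (.inr a)) := by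
  rw [xVar, show imIdx a = halves p (.inr a) from rfl, Equiv.symm_apply_apply]
  rfl

theorem ofX_toX (F : Gen.Pol (p + 1)) : ofX p (toX p F) = F := by
  suffices h : (ofX p).comp (toX p) = AlgHom.id ℂ _ from congrArg (fun f => f F) h
  refine algHom_ext fun u => ?_
  have h1 : (C (1 / 2) + C (1 / 2) : Gen.Pol (p + 1)) = 1 := by rw [← C_add]; norm_num
  have h2 : (C I * C (-I / 2) : Gen.Pol (p + 1)) = C (1 / 2) := by
    rw [← C_mul]; congr 1; linear_combination (-1 / 2) * Complex.I_mul_I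
  rcases u with a | a
  · simp only [AlgHom.comp_apply, toX, ofX, aeval_X, zVar, Sum.elim_inl, map_add, map_mul,
      aeval_C, xVar_reIdx, xVar_imIdx, algebraMap_eq, AlgHom.id_apply]
    linear_combination (X (.inl a) : Gen.Pol (p + 1)) * h1 + (X (.inl a) - X (.inr a)) * h2
  · simp only [AlgHom.comp_apply, toX, ofX, aeval_X, zVar, Sum.elim_inr, map_sub, map_mul,
      aeval_C, xVar_reIdx, xVar_imIdx, algebraMap_eq, AlgHom.id_apply]
    linear_combination (X (.inr a) : Gen.Pol (p + 1)) * h1 - (X (.inl a) - X (.inr a)) * h2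

theorem toX_ofX (P : CPoly (amb p)) : toX p (ofX p P) = P := by
  suffices h : (toX p).comp (ofX p) = AlgHom.id ℂ _ from congrArg (fun f => f P) h
  refine algHom_ext fun i => ?_
  have h1 : (C (1 / 2) + C (1 / 2) : CPoly (amb p)) = 1 := by rw [← C_add]; norm_num
  have h2 : (C (-I / 2) * C I : CPoly (amb p)) = C (1 / 2) := by
    rw [← C_mul]; congr 1; linear_combination (-1 / 2) * Complex.I_mul_I
  obtain ⟨a, rfl | rfl⟩ := eq_reIdx_or_imIdx i
  · simp only [AlgHom.comp_apply, toX, ofX, aeval_X, zVar, Sum.elim_inl, Sum.elim_inr, map_add,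
      map_mul, aeval_C, xVar_reIdx, algebraMap_eq, AlgHom.id_apply]
    linear_combination (X (reIdx a) : CPoly (amb p)) * h1
  · simp only [AlgHom.comp_apply, toX, ofX, aeval_X, zVar, Sum.elim_inl, Sum.elim_inr, map_sub,
      map_mul, aeval_C, xVar_imIdx, algebraMap_eq, AlgHom.id_apply]
    linear_combination (2 * X (imIdx a) : CPoly (amb p)) * h2 + (X (imIdx a) : CPoly (amb p)) * h1

theorem toX_injective : Function.Injective (toX p) :=
  Function.LeftInverse.injective ofX_toX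

theorem isHomogeneous_toX {F : Gen.Pol (p + 1)} {l : ℕ} (h : F.IsHomogeneous l) :
    (toX p F).IsHomogeneous l := by
  have h1 : ∀ u, (zVar (p := p) u).IsHomogeneous 1 := by
    rintro (a | a)
    · exact (isHomogeneous_X ℂ _).add ((isHomogeneous_X ℂ _).C_mul _)
    · exact (isHomogeneous_X ℂ _).sub ((isHomogeneous_X ℂ _).C_mul _)
  simpa [toX] using h.aeval zVar h1

theorem isHomogeneous_ofX {P : CPoly (amb p)} {l : ℕ} (h : P.IsHomogeneous l) :
    (ofX p P).IsHomogeneous l := by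
  have h1 : ∀ i, (xVar (p := p) i).IsHomogeneous 1 := by
    intro i
    obtain ⟨a, rfl | rfl⟩ := eq_reIdx_or_imIdx i
    · rw [xVar_reIdx]
      exact ((isHomogeneous_X ℂ _).add (isHomogeneous_X ℂ _)).C_mul _
    · rw [xVar_imIdx]
      exact ((isHomogeneous_X ℂ _).sub (isHomogeneous_X ℂ _)).C_mul _
  simpa [ofX] using h.aeval xVar h1

theorem pderiv_reIdx_toX (a : Fin (p + 1)) (F : Gen.Pol (p + 1)) :
    pderiv (reIdx a) (toX p F) =
      toX p (pderiv (Sum.inl a) F + pderiv (Sum.inr a) F) := by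
  rw [toX, pderiv_aeval, Fintype.sum_sum_type, map_add]
  have h1 : ∀ b, b ≠ a → reIdx b ≠ reIdx a := fun b hb h => hb (by
    simp [reIdx, Fin.ext_iff] at h ⊢; omega)
  congr 1 <;>
    rw [Finset.sum_eq_single_of_mem a (Finset.mem_univ a) fun b _ hb => by
      simp [zVar, pderiv_X_of_ne (h1 b hb), pderiv_X_of_ne (reIdx_ne_imIdx a b).symm]] <;>
    simp [zVar, pderiv_X_of_ne (reIdx_ne_imIdx a a).symm]

theorem pderiv_imIdx_toX (a : Fin (p + 1)) (F : Gen.Pol (p + 1)) :
    pderiv (imIdx a) (toX p F) =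
      toX p (C I * (pderiv (Sum.inl a) F - pderiv (Sum.inr a) F)) := by
  rw [toX, pderiv_aeval, Fintype.sum_sum_type, map_mul, aeval_C, map_sub, algebraMap_eq,
    mul_sub, sub_eq_add_neg]
  have h1 : ∀ b, b ≠ a → imIdx b ≠ imIdx a := fun b hb h => hb (by
    simp [imIdx, Fin.ext_iff] at h ⊢; omega)
  congr 1 <;>
    rw [Finset.sum_eq_single_of_mem a (Finset.mem_univ a) fun b _ hb => by
      simp [zVar, pderiv_X_of_ne (h1 b hb), pderiv_X_of_ne (reIdx_ne_imIdx b a)]] <;>
    simp [zVar, pderiv_X_of_ne (reIdx_ne_imIdx a a), mul_comm]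

theorem clap_toX (F : Gen.Pol (p + 1)) :
    clap (amb p) (toX p F) = toX p ((4 : ℂ) • Gen.lap (p + 1) F) := by
  rw [clap_apply, sum_halves, Gen.lap_apply, Finset.smul_sum, map_sum]
  refine Finset.sum_congr rfl fun a _ => ?_
  simp only [pderiv_reIdx_toX, pderiv_imIdx_toX, ← map_add, pderiv_C_mul, map_sub, smul_eq_C_mul,
    map_ofNat]
  congr 1
  have h : (C I * C I : Gen.Pol (p + 1)) = -1 := by rw [← C_mul, Complex.I_mul_I]; simp
  simp only [map_add]
  rw [pderiv_swap' (Sum.inr a) (Sum.inl a) F]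
  linear_combination (pderiv (Sum.inl a) (pderiv (Sum.inl a) F) -
    2 * pderiv (Sum.inl a) (pderiv (Sum.inr a) F) +
    pderiv (Sum.inr a) (pderiv (Sum.inr a) F)) * h

theorem J0_row_reIdx (a : Fin (p + 1)) :
    ∑ j, C ((J0 p (reIdx a) j : ℂ)) * X j = -(X (imIdx a) : CPoly (amb p)) := by
  rw [Finset.sum_eq_single_of_mem (imIdx a) (Finset.mem_univ _) fun j _ hj => by
    have : J0 p (reIdx a) j = 0 := by
      simp [J0, reIdx, imIdx, Fin.ext_iff] at hj ⊢
      omega
    simp [this]]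
  have : J0 p (reIdx a) (imIdx a) = -1 := by
    simp [J0, reIdx, imIdx]
  simp [this]

theorem J0_row_imIdx (a : Fin (p + 1)) :
    ∑ j, C ((J0 p (imIdx a) j : ℂ)) * X j = (X (reIdx a) : CPoly (amb p)) := by
  rw [Finset.sum_eq_single_of_mem (reIdx a) (Finset.mem_univ _) fun j _ hj => by
    have : J0 p (imIdx a) j = 0 := by
      simp [J0, reIdx, imIdx, Fin.ext_iff] at hj ⊢
      omega
    simp [this]]
  have : J0 p (imIdx a) (reIdx a) = 1 := by
    simp [J0, reIdx, imIdx]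
  simp [this]

/-- The difference of the two Euler fields. -/
def degDiff (p : ℕ) : Gen.Pol (p + 1) →ₗ[ℂ] Gen.Pol (p + 1) :=
  ∑ a : Fin (p + 1), ((LinearMap.mulLeft ℂ (X (Sum.inl a))) ∘ₗ (pderiv (Sum.inl a)).toLinearMap -
    (LinearMap.mulLeft ℂ (X (Sum.inr a))) ∘ₗ (pderiv (Sum.inr a)).toLinearMap)

theorem degDiff_apply (F : Gen.Pol (p + 1)) : degDiff p F =
    ∑ a : Fin (p + 1),
      (X (Sum.inl a) * pderiv (Sum.inl a) F - X (Sum.inr a) * pderiv (Sum.inr a) F) := by
  simp [degDiff, LinearMap.sum_apply]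

theorem cxi_toX (F : Gen.Pol (p + 1)) : cxi (J0 p) (toX p F) = toX p (I • degDiff p F) := by
  rw [cxi_apply, sum_halves, degDiff_apply, Finset.smul_sum, map_sum]
  refine Finset.sum_congr rfl fun a _ => ?_
  rw [J0_row_reIdx, J0_row_imIdx, pderiv_reIdx_toX, pderiv_imIdx_toX, smul_eq_C_mul]
  simp only [toX, map_mul, map_add, map_sub, aeval_C, algebraMap_eq, aeval_X]
  rw [show zVar (Sum.inl a) = X (reIdx a) + C I * X (imIdx a) from rfl,
    show zVar (Sum.inr a) = X (reIdx a) - C I * X (imIdx a) from rfl]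
  have h : (C I * C I : CPoly (amb p)) = -1 := by rw [← C_mul, Complex.I_mul_I]; simp
  linear_combination -(X (imIdx a) * ((aeval zVar) (pderiv (Sum.inl a) F) +
    (aeval zVar) (pderiv (Sum.inr a) F))) * h

end

end Vale.Agent.P225
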